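import Vale.Agent.Lib.P345.Terms

/-!
# P345: single-fold Diophantine representations for arithmetic terms without exponentiation

`ATerm n` is the type of terms in `n` variables built from variables and natural constants by
addition, multiplication, truncated subtraction, integer division and remainder, and
`t.val a` is the value of the term `t` at `a ∈ ℕ^n`.

For every such term `t`:
1. the zero set `{a : t(a) = 0}`,
2. its complement `{a : t(a) ≠ 0}`,
3. the graph `{(a, b) : b = t(a)}` (the value is the last coordinate of `ℕ^(n+1)`),
4. the complement of the graph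
all have single-fold Diophantine representations.
-/

namespace Vale.Agent.Results.P345.ArithmeticTermsSingleFold

open Vale.Agent.Lib.P345

theorem result (n : ℕ) (t : ATerm n) :
    HasSingleFoldRep {a : Fin n → ℕ | t.val a = 0} ∧
    HasSingleFoldRep {a : Fin n → ℕ | t.val a ≠ 0} ∧
    HasSingleFoldRep {v : Fin (n + 1) → ℕ | v (Fin.last n) = t.val (fun i => v i.castSucc)} ∧
    HasSingleFoldRep {v : Fin (n + 1) → ℕ | v (Fin.last n) ≠ t.val (fun i => v i.castSucc)} :=
  ⟨t.gsf.zero_set.hasSingleFoldRep, t.gsf.nonzero_set.hasSingleFoldRep,
    t.gsf.graph_fin.hasSingleFoldRep, t.gsf.graph_compl_fin.hasSingleFoldRep⟩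

end Vale.Agent.Results.P345.ArithmeticTermsSingleFold
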