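import Vale.Agent.Lib.P345.Comap

namespace Vale.Agent.Results.P345.PresburgerPolySingleFold

open Vale.Agent.Lib.P345

/-- For every Presburger-definable `S ⊆ ℕ^k` and every polynomial map `f : ℕ^m → ℕ^k` with
natural coefficients, the preimage `f⁻¹(S)` and its complement have single-fold Diophantine
representations. -/
theorem result (k m : ℕ) (A : Set ℕ) (S : Set (Fin k → ℕ))
    (hS : A.Definable FirstOrder.Language.presburger S) (f : Fin k → MvPolynomial (Fin m) ℕ) :
    HasSingleFoldRep {a : Fin m → ℕ | (fun i => MvPolynomial.eval a (f i)) ∈ S} ∧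
      HasSingleFoldRep {a : Fin m → ℕ | (fun i => MvPolynomial.eval a (f i)) ∈ S}ᶜ :=
  presburger_poly_singleFold k m A S hS f

end Vale.Agent.Results.P345.PresburgerPolySingleFold
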