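import Vale.Agent.Lib.P345.Main

namespace Vale.Agent.Results.P345.PresburgerSingleFold

open Vale.Agent.Lib.P345

/-- Every subset of `ℕ^n` that is first-order definable in Presburger arithmetic `(ℕ; 0, 1, +)`
(with parameters), and its complement, have single-fold Diophantine representations. -/
theorem result (n : ℕ) (A : Set ℕ) (S : Set (Fin n → ℕ))
    (hS : A.Definable FirstOrder.Language.presburger S) :
    HasSingleFoldRep S ∧ HasSingleFoldRep Sᶜ :=
  presburger_singleFold n A S hS

end Vale.Agent.Results.P345.PresburgerSingleFold
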